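import Vale.Agent.P240.R2.H986.B7r

/-!
`StmtB8` without the exception `n = 3`, `q = 11` (the proof is helper164's).
-/

set_option autoImplicit false

namespace Vale.Agent.P240.R2.H986.B7

open Finset Matrix Vale.Agent.P240 Vale.Agent.P240.K Vale.Agent.P240.R2.AS
open Vale.Agent.P240.R2.H275 (QuillenDim quillenDim_sub Tp_map quillenDim_of_rat)
open Vale.Agent.P240.R2.H63.As Vale.Agent.P240.R2.H164
open scoped Classical

universe u v

theorem stmtB8r_of (hM4 : StmtM4.{u}) (hM6 : StmtM6.{u, 0}) (hB5 : StmtB5.{u}) (hB6 : StmtB6.{u})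
    (hB7 : StmtB7r.{u}) (hCYC : StmtCYC.{u}) : StmtB8r.{u, v} := by
  intro K _ _ _ q hq hq11 hK hs n hn hn3 E hEc hEp 𝕜 _
  apply quillenDim_of_rat
  have : Fact (Nat.Prime 2) := ⟨Nat.prime_two⟩
  have h2q : 2 ∣ q + 1 := by
    obtain ⟨r, rfl⟩ := hq
    exact ⟨r + 1, by ring⟩
  have hn24 : (2 : ℕ) ≠ 2 ∨ (n ≠ 2 ∧ n ≠ 4) := by
    right
    obtain ⟨r, rfl⟩ := hn
    omega
  have hn2 : ¬ 2 ∣ n := fun h => (Nat.not_even_iff_odd.2 hn) (even_iff_two_dvd.2 h)
  have hm1 : (-1 : K) ≠ 1 := by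
    intro h
    have h2 : (2 : K) = 0 := by
      rw [← one_add_one_eq_two]
      nth_rewrite 1 [← h]
      ring
    have h3 : ((q : ℕ) : K) = 0 := by
      have h4 : ((Fintype.card K : ℕ) : K) = 0 := by simp
      rw [← Nat.card_eq_fintype_card, hK] at h4
      push_cast at h4
      exact pow_eq_zero_iff (two_ne_zero) |>.1 h4
    obtain ⟨r, rfl⟩ := hq
    push_cast at h3
    rw [h2, zero_mul, zero_add] at h3
    exact one_ne_zero h3
  have hnorm : (-1 : K) * star (-1 : K) = 1 := by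
    rw [star_neg, star_one]
    ring
  have hall : ∀ w : List (Ln K n), Orth w → eW (-1 : K) w ∈ PSU K n := fun w hw =>
    hB6 K 2 (-1) (by norm_num) hnorm n hn2 w hw
  by_cases hE1 : ∀ x ∈ E, x.right = 1
  · have hE : E ≤ PSU' K n := by
      intro x hx
      have h1 := mem_range_il (hE1 x hx)
      refine ⟨x.left, mem_PSU_of_sq hn ?_, h1⟩
      apply il_inj
      rw [map_pow, h1, map_one, hEp x hx]
    rw [sup_eq_left.2 hE]
    have h1 : PSU' K n = (PSU K n).map (il K n) := rfl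
    rw [h1, qd_map il_inj]
    exact hM6 K q (by omega) hK hs 2 h2q n (by omega) hn24 (-1) (by norm_num) hm1 _ hall ℚ
  · push Not at hE1
    obtain ⟨x, hxE, hx1⟩ := hE1
    obtain ⟨hstar, h, hxh⟩ := hB5 K q hq (by omega) hK hs n hn x (hEp x hxE) hx1
    set σ := x.right with hσ
    set g : PGamU K n := SemidirectProduct.inl h with hg
    set E' := E.map (MulAut.conj g⁻¹).toMonoidHom with hE'
    have hE'c : ∀ x ∈ E', ∀ y ∈ E', x * y = y * x := by
      rintro _ ⟨a, ha, rfl⟩ _ ⟨b, hb, rfl⟩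
      rw [← map_mul, ← map_mul, hEc a ha b hb]
    have hinr : SemidirectProduct.inr σ ∈ E' := by
      refine ⟨x, hxE, ?_⟩
      change g⁻¹ * x * g⁻¹⁻¹ = _
      rw [hxh]
      group
    have hH : (PSU' K n ⊔ E).map (MulAut.conj g⁻¹).toMonoidHom = PSU' K n ⊔ E' := by
      rw [Subgroup.map_sup]
      congr 1
      apply le_antisymm
      · rintro _ ⟨a, ha, rfl⟩
        exact psu'_normal.conj_mem a ha g⁻¹
      · intro a ha
        refine ⟨g * a * g⁻¹, psu'_normal.conj_mem a ha g, ?_⟩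
        change g⁻¹ * (g * a * g⁻¹) * g⁻¹⁻¹ = a
        group
    rw [← qd_map (f := (MulAut.conj g⁻¹).toMonoidHom) (MulAut.conj g⁻¹).injective, hH]
    refine qd_of _ n ?_ (hB7 K q hq hq11 hK hs n hn hn3 σ hstar _ le_sup_left
      (Subgroup.mem_sup_right hinr))
    intro D _ hDc hDp
    refine (hCYC K 2 n D hDc hDp).trans ?_
    rw [card_inf_ker]
    have := hM4 K q (by omega) hK hs 2 h2q n (by omega) hn24 (D.comap (il K n))
      (comap_comm hDc) (comap_pow hDp)
    calc 2 * Nat.card (D.comap (il K n)) ≤ 2 * 2 ^ (n - 1) := Nat.mul_le_mul_left _ this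
      _ = 2 ^ n := by rw [← pow_succ']; congr 1; omega

end Vale.Agent.P240.R2.H986.B7
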